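import Vale.Agent.P122.C.Defs2
import Vale.Agent.P122.H286.Dens
import Vale.Agent.P127.U.ExcBase

/-!
# P122 / H169 : C-LINK, boxes of nodes = labels of P127 (helper169)

A node `S` of level `i` (`m = i n`, slopes `sg = s i`) has the ball `bal m S = (T, o / 2^m)` and, in this ball, the
normalised line `lin m sg S = ((o mod 2^m) / 2^m, sg τ)`. A box is a pair (ball, label of P127/U). `bf m sg` is the family
of boxes of `H286`, with exact incidence `inc`.
-/

set_option autoImplicit false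

namespace Vale.Agent.P122.H169

open Vale.Agent.P122.C2 Vale.Agent.P127 Vale.Agent.P127.Stk Vale.Agent.P127.U

/-- a ball: time block and offset -/
abbrev Ball := ℤ × Z2

/-- the ball of the node -/
def bal (m : ℕ) (S : Nd) : Ball := (S.T, fun k => S.o k / 2 ^ m)

/-- the line of the node in its ball -/
noncomputable def lin (m : ℕ) (sg : Z2 → Fin 2 → ℝ) (S : Nd) : Ln :=
  (fun k => ((S.o k % 2 ^ m : ℤ) : ℝ) / 2 ^ m, sg S.τ)

/-- a box: ball and label -/
abbrev BW := Ball × Lab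

/-- the width exponent of a label -/
def lk (w : Lab) : ℕ := w.1
/-- the thickness exponent of a label -/
def lj (w : Lab) : ℕ := w.2.1
/-- the angle of a label -/
noncomputable def lθ (w : Lab) : ℝ := (w.2.2.1 : ℝ) / 2 ^ (lj w - lk w)

/-- the box of the node `S` with the shape and the angle of the label `w` -/
noncomputable def nlab (m : ℕ) (sg : Z2 → Fin 2 → ℝ) (w : Lab) (S : Nd) : Lab :=
  lab (lθ w) (lk w) (lj w) (lin m sg S)

/-- the family of boxes -/
noncomputable def bf (m : ℕ) (sg : Z2 → Fin 2 → ℝ) : H286.BF Nd BW where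
  inc S w := bal m S = w.1 ∧ nlab m sg w.2 S = w.2
  F w := lk w.2 ≤ lj w.2 ∧ lj w.2 ≤ m ∧ |lθ w.2| ≤ 4
  v w := 2 ^ (2 * m - lk w.2 - lj w.2)
  v1 w _ := one_le_pow₀ (by norm_num)
  ne := ⟨((0, fun _ => 0), (0, 0, 0, (0, 0), (0, 0))), by simp [lk, lj, lθ]⟩

variable {m : ℕ} {sg : Z2 → Fin 2 → ℝ}


theorem log_v {w : BW} (h : (bf m sg).F w) :
    Real.log ((bf m sg).v w) = Real.log 2 * (2 * m - lk w.2 - lj w.2) := by
  obtain ⟨h1, h2, -⟩ := h
  rw [show (bf m sg).v w = (2 : ℝ) ^ (2 * m - lk w.2 - lj w.2) from rfl, Real.log_pow]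
  have e : 2 * m - lk w.2 - lj w.2 + (lk w.2 + lj w.2) = 2 * m := by omega
  have e' : ((2 * m - lk w.2 - lj w.2 : ℕ) : ℝ) + (lk w.2 + lj w.2) = 2 * m := by exact_mod_cast e
  have e'' : ((2 * m - lk w.2 - lj w.2 : ℕ) : ℝ) = 2 * m - lk w.2 - lj w.2 := by linarith
  rw [e'']
  ring

theorem fl1_int (p : ℕ) (a : ℤ) : fl1 p ((a : ℝ) / 2 ^ p) = a := by
  unfold fl1
  rw [mul_div_cancel₀ _ (by positivity)]
  exact Int.floor_intCast a

/-- the label of the box at the rounded angle -/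
theorem lab_qa (θ : ℝ) (k j : ℕ) (l : Ln) : lab (qa (j - k) θ) k j l = lab θ k j l := by
  have h : fl1 (j - k) (qa (j - k) θ) = fl1 (j - k) θ := fl1_int _ _
  have h' : qa (j - k) (qa (j - k) θ) = qa (j - k) θ := by
    unfold qa
    rw [fl1_int]
  unfold lab
  rw [h, h']

/-- the angle of the label -/
theorem lθ_lab (θ : ℝ) (k j : ℕ) (l : Ln) : lθ (lab θ k j l) = qa (j - k) θ := rfl

/-- every node is in its boxes -/
theorem inc_lab (m : ℕ) (sg : Z2 → Fin 2 → ℝ) (θ : ℝ) (k j : ℕ) (S : Nd) :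
    (bf m sg).inc S (bal m S, lab θ k j (lin m sg S)) := by
  refine ⟨rfl, ?_⟩
  show lab (lθ (lab θ k j (lin m sg S))) k j (lin m sg S) = lab θ k j (lin m sg S)
  rw [lθ_lab, lab_qa]

theorem qa_abs {p : ℕ} {θ : ℝ} (h : |θ| ≤ 4) : |qa p θ| ≤ 4 := by
  obtain ⟨h1, h2⟩ := abs_le.1 h
  have hp : (0 : ℝ) < 2 ^ p := by positivity
  unfold qa fl1
  rw [abs_le, le_div_iff₀ hp, div_le_iff₀ hp]
  constructor
  · have h3 : ((-4 * 2 ^ p : ℤ) : ℝ) ≤ 2 ^ p * θ := by
      push_cast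
      nlinarith
    have h4 := Int.le_floor.2 h3
    have h5 : ((-4 * 2 ^ p : ℤ) : ℝ) ≤ (⌊(2 : ℝ) ^ p * θ⌋ : ℝ) := by exact_mod_cast h4
    push_cast at h5
    exact h5
  · have h3 := Int.floor_le ((2 : ℝ) ^ p * θ)
    nlinarith

/-- the boxes of the node are admissible -/
theorem F_lab {θ : ℝ} {k j : ℕ} {l : Ln} {b : Ball} (hk : k ≤ j) (hj : j ≤ m) (hθ : |θ| ≤ 4) :
    (bf m sg).F (b, lab θ k j l) := ⟨hk, hj, by
  show |lθ (lab θ k j l)| ≤ 4
  rw [lθ_lab]
  exact qa_abs hθ⟩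

/-- the tube itself -/
theorem one_le_mx {D : Finset Nd} {S : Nd} (hS : S ∈ D) : 1 ≤ (bf m sg).mx D := by
  refine (bf m sg).one_le_mx hS (w := (bal m S, lab 0 m m (lin m sg S))) (F_lab le_rfl le_rfl (by simp))
    (inc_lab m sg 0 m m S) ?_
  show (2 : ℝ) ^ (2 * m - m - m) = 1
  rw [show 2 * m - m - m = 0 by omega, pow_zero]

/-- the box of `P127` of the line `l` with the shape and the angle of the label -/
noncomputable def bxOf {Ω : Type} (l : Ω → Ln) (w : Ω → Lab) : Bx Ω :=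
  ⟨l, fun ω => lθ (w ω), fun ω => lk (w ω), fun ω => lj (w ω)⟩

end Vale.Agent.P122.H169
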