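import Vale.Agent.P122.H169.Near

/-!
# P122 / H169 : the excess of the tubes is at most the maximal density of the nodes (helper169)

`NR c m sg S b l` : the line `l` of the ball `b` is `c` tubes apart from the node `S` (the balls may be neighbours).
* `hc_tb_node`, `hc_node_tb` : the node and the tube `(tb m l, b)` determine each other up to `O_c(1)`.
* `excF_le` : for every law on a set `D` of nodes, `excF P (tbx m l) C ≤ log (mx D) + O_c(1)` for every condition `C` finer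
  than the ball.
-/

set_option autoImplicit false

namespace Vale.Agent.P122.H169

open Vale.Agent.P122.C2 Vale.Agent.P127 Vale.Agent.P127.Stk Vale.Agent.P127.U

/-- the line `l` of the ball `b` is `c` tubes apart from the node `S` -/
abbrev NR (c m : ℕ) (sg : Z2 → Fin 2 → ℝ) (S : Nd) (b : Ball) (l : Ln) : Prop :=
  NL c m b l (bal m S) (lin m sg S)

theorem lin_le (m : ℕ) (sg : Z2 → Fin 2 → ℝ) (S : Nd) (k : Fin 2) : |(lin m sg S).1 k| ≤ 1 := by
  show |((S.o k % 2 ^ m : ℤ) : ℝ) / 2 ^ m| ≤ 1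
  have h0 : (0 : ℤ) < 2 ^ m := by positivity
  have h1 := Int.emod_nonneg (S.o k) h0.ne'
  have h2 := Int.emod_lt_of_pos (S.o k) h0
  have hp : (0 : ℝ) < 2 ^ m := by positivity
  have h3 : (0 : ℝ) ≤ ((S.o k % 2 ^ m : ℤ) : ℝ) := by exact_mod_cast h1
  have h4 : ((S.o k % 2 ^ m : ℤ) : ℝ) ≤ 2 ^ m := by
    have : ((S.o k % 2 ^ m : ℤ) : ℝ) < ((2 ^ m : ℤ) : ℝ) := by exact_mod_cast h2
    push_cast at this
    linarith
  rw [abs_of_nonneg (div_nonneg h3 hp.le), div_le_one hp]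
  exact h4

/-- position of the node -/
theorem bal_lin (m : ℕ) (sg : Z2 → Fin 2 → ℝ) (S : Nd) (k : Fin 2) :
    ((bal m S).2 k : ℝ) + (lin m sg S).1 k = (S.o k : ℝ) / 2 ^ m := by
  show ((S.o k / 2 ^ m : ℤ) : ℝ) + ((S.o k % 2 ^ m : ℤ) : ℝ) / 2 ^ m = (S.o k : ℝ) / 2 ^ m
  have hp : (0 : ℝ) < 2 ^ m := by positivity
  have h := Int.mul_ediv_add_emod (S.o k) (2 ^ m)
  have h' : (2 : ℝ) ^ m * ((S.o k / 2 ^ m : ℤ) : ℝ) + ((S.o k % 2 ^ m : ℤ) : ℝ) = (S.o k : ℝ) := by exact_mod_cast h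
  rw [eq_div_iff hp.ne', add_mul, div_mul_cancel₀ _ hp.ne']
  linarith

section finite

variable {Ω : Type} [Fintype Ω] {γ : Type*} {m c : ℕ} {sg : Z2 → Fin 2 → ℝ}

/-- the constant of `hc_tb_node` -/
noncomputable def KT (c : ℕ) : ℝ := 2 * Real.log (2 * c + 3) + 2 * Real.log (2 * c + 3)

/-- the tube is determined by the node and the ball -/
theorem hc_tb_node (P : Law Ω) (N : Ω → Nd) (b : Ω → Ball) (l : Ω → Ln) (Z : Ω → γ)
    (h : ∀ ω, 0 < P.w ω → NR c m sg (N ω) (b ω) (l ω)) :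
    Stk.hc P (fun ω => tb m (l ω)) (fun ω => ((N ω, b ω), Z ω)) ≤ KT c := by
  set Y : Ω → (Nd × Ball) × γ := fun ω => ((N ω, b ω), Z ω) with hY
  have h0 := Stk.hc_pair P (fun ω => fl m (l ω).1) (fun ω => fl m (l ω).2) Y
  have h1 := hc_fl_close P c (fun ω => (l ω).1)
    (fun ω => fun k => ((bal m (N ω)).2 k : ℝ) + (lin m sg (N ω)).1 k - ((b ω).2 k : ℝ)) Y (s := m) (fun ω hω k => by
      have := (h ω hω).2.1 k
      have e : (l ω).1 k - (((bal m (N ω)).2 k : ℝ) + (lin m sg (N ω)).1 k - ((b ω).2 k : ℝ)) =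
        (((b ω).2 k : ℝ) + (l ω).1 k) - (((bal m (N ω)).2 k : ℝ) + (lin m sg (N ω)).1 k) := by ring
      rw [e]
      exact this)
  have h2 := hc_fl_close P c (fun ω => (l ω).2) (fun ω => sg (N ω).τ) (fun ω => (fl m (l ω).1, Y ω)) (s := m)
    (fun ω hω k => (h ω hω).2.2 k)
  have h3 : Stk.hc P (fun ω => fl m (l ω).1) Y ≤ Stk.hc P (fun ω => fl m (l ω).1) (fun ω =>
      (fl m (fun k => ((bal m (N ω)).2 k : ℝ) + (lin m sg (N ω)).1 k - ((b ω).2 k : ℝ)), Y ω)) := by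
    refine Stk.hc_mono_right P _ ?_
    intro ω ω' _ _ e
    have e1 : N ω = N ω' := congrArg (fun x => x.1.1) e
    have e2 : b ω = b ω' := congrArg (fun x => x.1.2) e
    simp only [e, e1, e2]
  have h4 : Stk.hc P (fun ω => fl m (l ω).2) (fun ω => (fl m (l ω).1, Y ω)) ≤
      Stk.hc P (fun ω => fl m (l ω).2) (fun ω => (fl m (sg (N ω).τ), (fl m (l ω).1, Y ω))) := by
    refine Stk.hc_mono_right P _ ?_
    intro ω ω' _ _ e
    have e1 : N ω = N ω' := congrArg (fun x => x.2.1.1) e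
    simp only [Prod.mk.injEq] at e ⊢
    exact ⟨by rw [e1], e⟩
  simp only [Fintype.card_fin, Nat.cast_ofNat] at h1 h2
  have h5 : Stk.hc P (fun ω => tb m (l ω)) Y = Stk.hc P (fun ω => (fl m (l ω).1, fl m (l ω).2)) Y := rfl
  rw [h5, h0]
  unfold KT
  linarith

/-- the total constant of `excF_le` -/
noncomputable def KE (c : ℕ) : ℝ := KT c + KL c

/-- **the excess of the tubes is at most the maximal density of the nodes** -/
theorem excF_le (P : Law Ω) (D : Finset Nd) (N : Ω → Nd) (b : Ω → Ball) (l : Ω → Ln) (C : Ω → γ)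
    (hN : ∀ ω, 0 < P.w ω → N ω ∈ D) (hl : ∀ ω, 0 < P.w ω → LnOk (l ω))
    (h : ∀ ω, 0 < P.w ω → NR c m sg (N ω) (b ω) (l ω)) (hC : Stk.Fn P b C) :
    excF P (tbx m l) C ≤ Real.log ((bf m sg).mx D) + KE c := by
  have hok : ∀ ω, 0 < P.w ω → BxOk (tbx m l) ω := fun ω hω => ⟨hl ω hω, by simp [tbx], le_rfl⟩
  refine csSup_le ⟨0, zero_mem_exSet hok⟩ ?_
  rintro v ⟨Ω', _, P', π, W, hπ, hW, rfl⟩
  have hpos : ∀ ω, 0 < P'.w ω → 0 < P.w (π ω) := fun ω hω => by
    rw [← hπ]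
    exact P'.pr_pos π hω
  -- the geometric box of the node
  set ν : Ω' → BW := fun ω => (bal m (N (π ω)), U.lab (W.θ ω) (W.k ω) (W.j ω) (lin m sg (N (π ω)))) with hν
  set Y : Ω' → Lab × γ := fun ω => (W.lab ω, C (π ω)) with hY
  have hC' : Stk.Fn P' (fun ω => b (π ω)) (fun ω => C (π ω)) := fun ω ω' p p' e => hC _ _ (hpos ω p) (hpos ω' p') e
  unfold exV
  -- from the label of the tube to the node
  have a1 := Stk.hc_le_add P' ((tbx m l).comp π).lab (fun ω => (N (π ω), b (π ω))) Y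
  have a2 : Stk.hc P' ((tbx m l).comp π).lab (fun ω => ((N (π ω), b (π ω)), Y ω)) ≤ KT c := by
    refine le_trans (Stk.hc_mono_left P' (X' := fun ω => tb m (l (π ω))) ?_)
      (hc_tb_node P' (fun ω => N (π ω)) (fun ω => b (π ω)) (fun ω => l (π ω)) Y fun ω hω => h _ (hpos ω hω))
    intro ω ω' _ _ e
    exact LocT.lab_tube_eq.2 (congrArg Prod.fst e)
  have a3 : Stk.hc P' (fun ω => (N (π ω), b (π ω))) Y ≤ Stk.hc P' (fun ω => N (π ω)) Y := by
    refine Stk.hc_mono_left P' ?_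
    intro ω ω' p p' e
    have e1 : N (π ω) = N (π ω') := congrArg Prod.fst e
    have e2 : C (π ω) = C (π ω') := congrArg (fun x => x.2.2) e
    exact Prod.ext e1 (hC' ω ω' p p' e2)
  -- from the node to its box
  have a4 := Stk.hc_le_add' P' (fun ω => N (π ω)) ν Y
  have a5 := (bf m sg).hc_le_ex P' (D := D) (fun ω => N (π ω)) ν Y (fun ω hω => by
    obtain ⟨w1, w2, w3, w4, w5, w6⟩ := hW ω hω
    exact ⟨hN _ (hpos ω hω), F_lab w3 w5 w2, inc_lab m sg _ _ _ _⟩)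
  -- the box is determined by the label of `W`
  have a6 : Stk.hc P' ν Y ≤ KL c := by
    refine le_trans (Stk.hc_mono_right P' ν
      (Y := fun ω => ((U.lab (W.θ ω) (W.k ω) (W.j ω) (l (π ω)), b (π ω)), Y ω)) ?_)
      (hc_nl_lab (m := m) (c := c) P' (fun ω => b (π ω)) (fun ω => bal m (N (π ω))) (fun ω => l (π ω)) (fun ω => lin m sg (N (π ω)))
        W.θ W.k W.j Y fun ω hω => ?_)
    · intro ω ω' p p' e
      have e1 : W.lab ω = W.lab ω' := congrArg Prod.fst e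
      have e2 := hC' ω ω' p p' (congrArg Prod.snd e)
      simp only [Prod.mk.injEq]
      refine ⟨⟨?_, e2⟩, e⟩
      have e3 := (hW ω p).1
      have e4 := (hW ω' p').1
      unfold Bx.lab at e1
      rw [e3, e4] at e1
      exact e1
    · obtain ⟨w1, w2, w3, w4, w5, w6⟩ := hW ω hω
      exact ⟨h _ (hpos ω hω), (hl _ (hpos ω hω)).1, lin_le m sg _, w3, w5⟩
  have a7 : (P'.ex fun ω => Real.log ((bf m sg).v (ν ω))) =
      Real.log 2 * P'.ex fun ω => ((tbx m l).comp π).sz ω - W.sz ω := by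
    rw [← P'.ex_const_mul]
    refine P'.ex_congr fun ω hω => ?_
    obtain ⟨w1, w2, w3, w4, w5, w6⟩ := hW ω hω
    have w5' : W.j ω ≤ m := w5
    have w8 : (bf m sg).F (ν ω) := F_lab w3 w5' w2
    rw [log_v w8]
    show Real.log 2 * (2 * (m : ℝ) - W.k ω - W.j ω) = Real.log 2 * (((m : ℝ) + m) - ((W.k ω : ℝ) + W.j ω))
    ring
  unfold KE
  rw [← a7]
  linarith

end finite

end Vale.Agent.P122.H169
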