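import Vale.Agent.P122.H169.Box
import Vale.Agent.P127.U.LocT

/-!
# P122 / H169 : close lines in (shifted) balls have close labels (helper169)

`NL c m b l b' l'` : the lines `l` of the ball `b` and `l'` of the ball `b'` are at distance `c` tubes of precision `m`.
`hc_nl_lab` : `(b', lab θ k j l')` has entropy `O_c(1)` given `(lab θ k j l, b)`, for all random shapes and angles.
-/

set_option autoImplicit false

namespace Vale.Agent.P122.H169

open Vale.Agent.P122.C2 Vale.Agent.P127 Vale.Agent.P127.Stk Vale.Agent.P127.U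

/-- the line `l` in the ball `b` and the line `l'` in the ball `b'` are `c` tubes apart -/
def NL (c m : ℕ) (b : Ball) (l : Ln) (b' : Ball) (l' : Ln) : Prop :=
  b.1 = b'.1 ∧ (∀ k, |((b.2 k : ℝ) + l.1 k) - ((b'.2 k : ℝ) + l'.1 k)| ≤ c * (1 / 2 : ℝ) ^ m) ∧
    ∀ k, |l.2 k - l'.2 k| ≤ c * (1 / 2 : ℝ) ^ m

theorem NL.symm {c m : ℕ} {b b' : Ball} {l l' : Ln} (h : NL c m b l b' l') : NL c m b' l' b l :=
  ⟨h.1.symm, fun k => by rw [abs_sub_comm]; exact h.2.1 k, fun k => by rw [abs_sub_comm]; exact h.2.2 k⟩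

theorem half_le_one (m : ℕ) : (1 / 2 : ℝ) ^ m ≤ 1 := pow_le_one₀ (by norm_num) (by norm_num)

theorem half_le {a b : ℕ} (h : a ≤ b) : (1 / 2 : ℝ) ^ b ≤ (1 / 2 : ℝ) ^ a :=
  pow_le_pow_of_le_one (by norm_num) (by norm_num) h

/-- the shift of the ball -/
def sh (b b' : Ball) : Z2 := fun k => b'.2 k - b.2 k

theorem NL.sh_le {c m : ℕ} {b b' : Ball} {l l' : Ln} (h : NL c m b l b' l') (h1 : ∀ k, |l.1 k| ≤ 1)
    (h2 : ∀ k, |l'.1 k| ≤ 1) (k : Fin 2) : |sh b b' k| ≤ ((c + 2 : ℕ) : ℤ) := by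
  have e1 := h.2.1 k
  have e2 : |((sh b b' k : ℤ) : ℝ)| ≤ ((c + 2 : ℕ) : ℝ) := by
    have e3 : ((sh b b' k : ℤ) : ℝ) = (l.1 k - l'.1 k) - (((b.2 k : ℝ) + l.1 k) - ((b'.2 k : ℝ) + l'.1 k)) := by
      unfold sh
      push_cast
      ring
    rw [e3]
    refine (abs_sub _ _).trans ?_
    have e4 := (abs_sub (l.1 k) (l'.1 k)).trans (add_le_add (h1 k) (h2 k))
    have e5 : (c : ℝ) * (1 / 2 : ℝ) ^ m ≤ c := mul_le_of_le_one_right (Nat.cast_nonneg _) (half_le_one m)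
    push_cast
    linarith
  have : ((|sh b b' k| : ℤ) : ℝ) ≤ (((c + 2 : ℕ) : ℤ) : ℝ) := by
    push_cast
    push_cast at e2
    exact e2
  exact_mod_cast this

/-- the shifted label -/
noncomputable def shl (e : Z2) (w : Lab) : Lab :=
  (lk w, lj w, w.2.2.1,
    (fl1 (lk w) ((w.2.2.2.1.1 : ℝ) / 2 ^ lk w - co (lθ w) (fun k => (e k : ℝ)) 0),
      fl1 (lj w) ((w.2.2.2.1.2 : ℝ) / 2 ^ lj w - co (lθ w) (fun k => (e k : ℝ)) 1)),
    w.2.2.2.2)

theorem fl1_div_close (k : ℕ) (x : ℝ) : |x - (fl1 k x : ℝ) / 2 ^ k| ≤ (1 / 2 : ℝ) ^ k := by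
  have := qa_close k x
  unfold qa at this
  exact this

theorem co_add (θ : ℝ) (v w : Fin 2 → ℝ) (i : Fin 2) :
    co θ (fun j => v j + w j) i = co θ v i + co θ w i := by
  fin_cases i <;> simp [co] <;> ring

/-- the labels are close after the shift -/
theorem NL.labCl {c m : ℕ} {b b' : Ball} {l l' : Ln} (h : NL c m b l b' l') {θ : ℝ} {k j : ℕ} (hk : k ≤ j)
    (hj : j ≤ m) : LabCl (2 * c + 2) (lab θ k j l') (shl (sh b b') (lab θ k j l)) := by
  obtain ⟨-, hp, hv⟩ := h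
  set φ := qa (j - k) θ with hφ
  have hθ : lθ (lab θ k j l) = φ := rfl
  -- the error
  set u : Fin 2 → ℝ := fun i => l'.1 i - (l.1 i - (sh b b' i : ℝ)) with hu
  have hu1 : ∀ i, |u i| ≤ c * (1 / 2 : ℝ) ^ m := by
    intro i
    have := hp i
    rw [abs_sub_comm] at this
    have e : u i = ((b'.2 i : ℝ) + l'.1 i) - ((b.2 i : ℝ) + l.1 i) := by
      simp only [hu, sh]
      push_cast
      ring
    rw [e]
    exact this
  have hcu := fun i => abs_co_le (θ := φ) hu1 i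
  have hdec : ∀ i, co φ l'.1 i = co φ l.1 i - co φ (fun i => (sh b b' i : ℝ)) i + co φ u i := by
    intro i
    rw [← co_sub, ← co_add]
    congr 1
    ext i
    simp only [hu]
    ring
  have key : ∀ (a : ℕ) (i : Fin 2), a ≤ m →
      |fl1 a (co φ l'.1 i) - fl1 a ((fl1 a (co φ l.1 i) : ℝ) / 2 ^ a - co φ (fun i => (sh b b' i : ℝ)) i)| ≤
        ((2 * c + 1 : ℕ) : ℤ) + 1 := by
    intro a i ha
    apply fl1_sub_le
    have e1 := fl1_div_close a (co φ l.1 i)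
    have e2 := hcu i
    have e3 := half_le ha
    rw [hdec i]
    have e4 : co φ l.1 i - co φ (fun i => (sh b b' i : ℝ)) i + co φ u i -
        ((fl1 a (co φ l.1 i) : ℝ) / 2 ^ a - co φ (fun i => (sh b b' i : ℝ)) i) =
        (co φ l.1 i - (fl1 a (co φ l.1 i) : ℝ) / 2 ^ a) + co φ u i := by ring
    rw [e4]
    refine (abs_add_le _ _).trans ?_
    have e5 : (c : ℝ) * (1 / 2 : ℝ) ^ m ≤ c * (1 / 2 : ℝ) ^ a := mul_le_mul_of_nonneg_left e3 (Nat.cast_nonneg _)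
    push_cast
    linarith
  have key2 : ∀ (a : ℕ) (i : Fin 2), a ≤ m → |fl1 a (co φ l'.2 i) - fl1 a (co φ l.2 i)| ≤ ((2 * c : ℕ) : ℤ) + 1 := by
    intro a i ha
    apply fl1_sub_le
    have e1 := abs_co_le (θ := φ) (v := fun i => l'.2 i - l.2 i) (a := c * (1 / 2 : ℝ) ^ m) (fun i => by
      rw [abs_sub_comm]; exact hv i) i
    rw [co_sub] at e1
    have e5 : (c : ℝ) * (1 / 2 : ℝ) ^ m ≤ c * (1 / 2 : ℝ) ^ a :=
      mul_le_mul_of_nonneg_left (half_le ha) (Nat.cast_nonneg _)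
    push_cast
    linarith
  refine ⟨rfl, rfl, rfl, ?_, ?_, ?_, ?_⟩
  · have := key k 0 (hk.trans hj)
    push_cast at this ⊢
    exact this
  · have := key j 1 hj
    push_cast at this ⊢
    exact this
  · have := key2 k 0 (hk.trans hj)
    have h2 : (((2 * c : ℕ) : ℤ) + 1) ≤ ((2 * c + 2 : ℕ) : ℤ) := by push_cast; omega
    exact this.trans h2
  · have := key2 j 1 hj
    have h2 : (((2 * c : ℕ) : ℤ) + 1) ≤ ((2 * c + 2 : ℕ) : ℤ) := by push_cast; omega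
    exact this.trans h2

section finite

variable {Ω : Type} [Fintype Ω] {γ : Type*}

/-- a variable with few values has a small entropy -/
theorem hc_z2 (P : Law Ω) (e : Ω → Z2) (Y : Ω → γ) (N : ℕ) (h : ∀ ω, 0 < P.w ω → ∀ k, |e ω k| ≤ N) :
    Stk.hc P e Y ≤ 2 * Real.log (2 * N + 1) := by
  have := hc_sub_le P e (fun _ _ => 0) Y N (fun ω hω i => by simpa using h ω hω i)
  rw [hc_zero P (X := fun _ : Ω => (fun _ => 0 : Z2)) (fun _ _ _ _ _ => rfl)] at this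
  simpa using this

/-- the constant -/
noncomputable def KL (c : ℕ) : ℝ := Real.log (((2 * (2 * c + 2) + 1) ^ 4 : ℕ) : ℝ) + 2 * Real.log (2 * ((c + 2 : ℕ) : ℝ) + 1)

/-- **close lines have close labels** : ball and label of the second line are determined, up to `O_c(1)`, by those of the
first one -/
theorem hc_nl_lab (P : Law Ω) {c m : ℕ} (b b' : Ω → Ball) (l l' : Ω → Ln) (θ : Ω → ℝ) (k j : Ω → ℕ) (Y : Ω → γ)
    (h : ∀ ω, 0 < P.w ω → NL c m (b ω) (l ω) (b' ω) (l' ω) ∧ (∀ i, |(l ω).1 i| ≤ 1) ∧ (∀ i, |(l' ω).1 i| ≤ 1) ∧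
      k ω ≤ j ω ∧ j ω ≤ m) :
    Stk.hc P (fun ω => (b' ω, U.lab (θ ω) (k ω) (j ω) (l' ω)))
      (fun ω => ((U.lab (θ ω) (k ω) (j ω) (l ω), b ω), Y ω)) ≤ KL c := by
  set Z : Ω → (Lab × Ball) × γ := fun ω => ((U.lab (θ ω) (k ω) (j ω) (l ω), b ω), Y ω) with hZ
  set e : Ω → Z2 := fun ω => sh (b ω) (b' ω) with he
  set X : Ω → Lab := fun ω => U.lab (θ ω) (k ω) (j ω) (l' ω) with hX
  have h1 := Stk.hc_le_add' P (fun ω => (b' ω, X ω)) e Z
  have h2 : Stk.hc P e Z ≤ 2 * Real.log (2 * ((c + 2 : ℕ) : ℝ) + 1) :=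
    hc_z2 P e Z (c + 2) fun ω hω => (h ω hω).1.sh_le (h ω hω).2.1 (h ω hω).2.2.1
  have h3 : Stk.hc P (fun ω => (b' ω, X ω)) (fun ω => (e ω, Z ω)) ≤ Stk.hc P X (fun ω => (e ω, Z ω)) := by
    refine Stk.hc_mono_left P ?_
    intro ω ω' p p' hh
    simp only [Prod.mk.injEq, hZ] at hh
    obtain ⟨hx, heq, ⟨-, hb⟩, -⟩ := hh
    refine Prod.ext ?_ hx
    show b' ω = b' ω'
    refine Prod.ext ?_ ?_
    · rw [← (h ω p).1.1, ← (h ω' p').1.1, hb]
    · funext i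
      have a1 : sh (b ω) (b' ω) i = sh (b ω') (b' ω') i := congrFun heq i
      unfold sh at a1
      rw [hb] at a1
      linarith
  have h4 : Stk.hc P X (fun ω => (e ω, Z ω)) ≤
      Stk.hc P X (fun ω => (shl (e ω) (U.lab (θ ω) (k ω) (j ω) (l ω)), (fun ω => (e ω, Z ω)) ω)) := by
    refine Stk.hc_mono_right P X ?_
    intro ω ω' p p' hh
    simp only [Prod.mk.injEq, hZ] at hh
    obtain ⟨heq, ⟨hw, hb⟩, hy⟩ := hh
    simp only [hZ, Prod.mk.injEq]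
    refine ⟨?_, heq, ⟨hw, hb⟩, hy⟩
    rw [heq, hw]
  have h5 := hc_labCl P X (fun ω => shl (e ω) (U.lab (θ ω) (k ω) (j ω) (l ω))) (fun ω => (e ω, Z ω)) (2 * c + 2)
    (fun ω hω => (h ω hω).1.labCl (h ω hω).2.2.2.1 (h ω hω).2.2.2.2)
  unfold KL
  linarith

end finite

end Vale.Agent.P122.H169
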